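import Vale.Agent.P250.Full.Levi

/-!
The Laplacian along complex lines.
-/

namespace Vale.Agent.P250.Full

open Complex MeasureTheory Set
open scoped ComplexConjugate ContDiff Real

/-- The two-dimensional Laplacian. -/
noncomputable def lap2 (f : ℂ → ℝ) (s : ℂ) : ℝ :=
  iteratedFDeriv ℝ 2 f s ![1, 1] + iteratedFDeriv ℝ 2 f s ![I, I]

lemma lap2_eq (f : ℂ → ℝ) (s : ℂ) :
    lap2 f s = fderiv ℝ (fderiv ℝ f) s 1 1 + fderiv ℝ (fderiv ℝ f) s I I := by
  simp [lap2, iteratedFDeriv_two_apply]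

/-- Along a complex line the Laplacian is four times the Levi form. -/
lemma lap2_line {f : (Fin 2 → ℂ) → ℝ} {V : Set (Fin 2 → ℂ)} (hV : IsOpen V)
    (hf : ContDiffOn ℝ 2 f V) (z₀ v : Fin 2 → ℂ) {s : ℂ} (hs : z₀ + s • v ∈ V) :
    lap2 (fun t : ℂ => f (z₀ + t • v)) s = 4 * levQ f (z₀ + s • v) v := by
  have hd : ∀ t : ℂ, HasDerivAt (fun t : ℂ => z₀ + t • v) v t := fun t => by
    simpa using ((hasDerivAt_id t).smul_const v).const_add z₀
  have h := hq_comp_levQ hV hf (φ := fun t : ℂ => z₀ + t • v)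
    (U := {t : ℂ | z₀ + t • v ∈ V}) (hV.preimage (by fun_prop))
    (fun t _ => (hd t).differentiableAt.differentiableWithinAt) (fun t ht => ht) (ζ := s) hs
  rw [(hd s).deriv] at h
  simpa [lap2_eq, hq, hess] using h

/-- Restriction of a pluriharmonic function to a complex line is harmonic. -/
lemma harmonicAt_line {f : (Fin 2 → ℂ) → ℝ} {V : Set (Fin 2 → ℂ)} (hV : IsOpen V)
    (hf : ContDiffOn ℝ 2 f V) (z₀ v : Fin 2 → ℂ)
    (h0 : ∀ z ∈ V, levQ f z v = 0) {s : ℂ} (hs : z₀ + s • v ∈ V) :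
    InnerProductSpace.HarmonicAt (fun t : ℂ => f (z₀ + t • v)) s := by
  have hWo : IsOpen {t : ℂ | z₀ + t • v ∈ V} := hV.preimage (by fun_prop)
  refine ⟨(hf.contDiffAt (hV.mem_nhds hs)).comp s (by fun_prop), ?_⟩
  filter_upwards [hWo.mem_nhds hs] with t ht
  have h := lap2_line hV hf z₀ v (s := t) ht
  rw [h0 _ ht, mul_zero, lap2] at h
  rw [InnerProductSpace.laplacian_eq_iteratedFDeriv_complexPlane]
  exact h

end Vale.Agent.P250.Full
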